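import Crest.Agent.X212.Ixm76.Rw
import Crest.Agent.X212.Num57.RzL
import Crest.Agent.X212.Num57.Rz
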