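import Crest.Agent.X212.Nk89.Brg
import Crest.Agent.X212.Map77.Fin
import Crest.Agent.X212.Fred93.Basic
import Crest.Agent.X212.Nk89.Idx
import Crest.Agent.X212.Map77.Rp

-- ▼ part X212/Num57/RzE
section

/-! X212/Num57/RzE (helper57): equations on a manifold with cylindrical ends which are
transplanted from the cylinders of the ends. -/

set_option autoImplicit false
set_option linter.unusedSectionVars false
noncomputable section
open scoped Manifold ContDiff Topology InnerProductSpace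
open MeasureTheory Set Function Filter

namespace Crest.Agent.X212.Rz57
open An An.Pre Sob92 Prm93 Mod61 Map77 Nd18 Cyf70 Nk89

variable {E : Type} [NormedAddCommGroup E] [NormedSpace ℝ E] [FiniteDimensional ℝ E]
  [MeasurableSpace E] [BorelSpace E]
  {HM : Type} [TopologicalSpace HM] {I : ModelWithCorners ℝ E HM} [I.Boundaryless]
  {M : Type} [TopologicalSpace M] [ChartedSpace HM M] [IsManifold I ∞ M]
  [MeasurableSpace M] [T2Space M] [BorelSpace M] [SecondCountableTopology M]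
  {ι κ : Type} [Fintype ι] [Fintype κ] {lam : Type} [Fintype lam]
  {T : Type} [NormedAddCommGroup T] [NormedSpace ℝ T]

section loc
variable {E' : Type} [NormedAddCommGroup E'] [NormedSpace ℝ E'] [FiniteDimensional ℝ E']
  [MeasurableSpace E'] [BorelSpace E']
  {HM' : Type} [TopologicalSpace HM'] {I' : ModelWithCorners ℝ E' HM'} [I'.Boundaryless]
  {M' : Type} [TopologicalSpace M'] [ChartedSpace HM' M'] [IsManifold I' ∞ M']
  [MeasurableSpace M'] [T2Space M'] [BorelSpace M'] [SecondCountableTopology M']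
  {B : Base M ι lam} {G : Geo I M ι lam} {B' : Base M' ι lam} {G' : Geo I' M' ι lam}
  {ψ : M → M'} {O : Set M} {x : M} {N : ℕ} {J : An.En (Fin N)} {p : M → An.En (Fin N)}
  {ρ W : ι → M → An.En (Fin N)} {j : M → CL (Eu lam) (An.En (Fin N))} {p' : M' → An.En (Fin N)}
  {ρ' W' : ι → M' → An.En (Fin N)} {j' : M' → CL (Eu lam) (An.En (Fin N))}
  (g : Pj41.GRel B G B' G' ψ O) (hx : x ∈ O) (e1 : p x = p' (ψ x)) (e2 : ∀ a, ρ a x = ρ' a (ψ x))
  (e3 : j x = j' (ψ x))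
include e1 e2 e3

theorem pg_loc : Md.pg (⟨N, J, p, ρ, j⟩ : Md M ι lam) x = Md.pg ⟨N, J, p', ρ', j'⟩ (ψ x) := by
  show Md.pg (⟨N, J, fun _ => p x, fun a _ => ρ a x, fun _ => j x⟩ : Md Unit ι lam) () =
    Md.pg (⟨N, J, fun _ => p' (ψ x), fun a _ => ρ' a (ψ x), fun _ => j' (ψ x)⟩ : Md Unit ι lam) ()
  rw [e1, e3, show (fun a (_ : Unit) => ρ a x) = fun a _ => ρ' a (ψ x) from
    funext fun a => funext fun _ => e2 a]

include g hx

omit e1 e2 e3 in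
theorem sd_loc : B.sd x = B'.sd (ψ x) := funext₂ fun s t => by
  simp only [Base.sd, Base.a2, Base.st, g.P _ _ x hx, g.o _ _ _ _ x hx]

omit e3 in
theorem pp_loc : Md.pp (⟨N, J, p, ρ, j⟩ : Md M ι lam) B x = Md.pp ⟨N, J, p', ρ', j'⟩ B' (ψ x) ∧
    Md.pm (⟨N, J, p, ρ, j⟩ : Md M ι lam) B x = Md.pm ⟨N, J, p', ρ', j'⟩ B' (ψ x) := by
  simp only [Md.pp, Md.pm, Md.om, e1, e2, g.o _ _ _ _ x hx, and_self]

/-- the unperturbed equations are local -/
theorem eq0_loc {r n m : ℕ} {Φ : M → Eu (Fin N)} {Φ' : M' → Eu (Fin N)}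
    {z z' : EuclideanSpace ℂ (Fin r)} (e4 : ∀ a, ∀ᶠ y in 𝓝 x, W a y = W' a (ψ y))
    (e5 : ∀ᶠ y in 𝓝 x, Φ y = Φ' (ψ y)) :
    (eq0 B G r n m).D ⟨⟨N, J, p, ρ, j⟩, W, Φ, z⟩ x =
      (eq0 B' G' r n m).D ⟨⟨N, J, p', ρ', j'⟩, W', Φ', z'⟩ (ψ x) ∧
    (eq0 B G r n m).C ⟨⟨N, J, p, ρ, j⟩, W, Φ, z⟩ x =
      (eq0 B' G' r n m).C ⟨⟨N, J, p', ρ', j'⟩, W', Φ', z'⟩ (ψ x) :=
  ⟨g.fr.dir hx e2 (fun a => (e4 a).self_of_nhds) e5, by
    simp only [eq0, Md.p2, Md.Fg, Md.mu, Md.q, pg_loc (J := J) e1 e2 e3, sd_loc g hx, g.fr.curv hx e4,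
      e2, e5.self_of_nhds]⟩

end loc

variable {𝔉 : Fam I M (Option κ) lam T}

section defs
variable (P : End 𝔉) (o : Ref 𝔉) (R : ℝ) (t : T)

/-- the limit connection, in every rank -/
def bW : ∀ N : ℕ, Option κ → P.Y.M → An.En (Fin N) := Pi.single o.m.N (P.sl o (R + 1) t).W

/-- the limit spinor, in every rank -/
def bΦ : ∀ N : ℕ, P.Y.M → Eu (Fin N) := Pi.single o.m.N (P.sl o (R + 1) t).Φ

/-- the configuration on the cylinder which agrees with `c` high up on the end -/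
@[reducible] def ct (c : Cfg M (Option κ) lam 0) : Cfg (P.Y.M × ℝ) (Option κ) lam 0 :=
  ⟨⟨c.m.N, c.m.J, fun z => c.m.p (P.pt (R + 1) z.1), fun a z => c.m.ρ a (P.pt (R + 1) z.1),
    fun z => c.m.j (P.pt (R + 1) z.1)⟩,
    fun a z => bW P o R t _ a z.1 + P.θZ (R + 1 + 1) z • (c.W a (P.K.ψ z) - bW P o R t _ a z.1),
    fun z => bΦ P o R t _ z.1 + P.θZ (R + 1 + 1) z • (c.Φ (P.K.ψ z) - bΦ P o R t _ z.1), 0⟩

/-- a term which is transplanted from the cylinder -/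
def tau (σ : PtX (P.Y.M × ℝ) (Option κ) lam 0 0 0) : PtX M (Option κ) lam 0 0 0 where
  D c x := P.θ (R + 1 + 1) x • σ.D (ct P o R t c) (P.K.ψ.symm x)
  C c x := P.θ (R + 1 + 1) x • σ.C (ct P o R t c) (P.K.ψ.symm x)
  S _ := 0
  R _ := 0

/-- **the equations** -/
def eR {A : Type} [Fintype A] (P : A → End 𝔉) (o : Ref 𝔉) (R : ℝ) (t : T)
    (e : ∀ a, PtX ((P a).Y.M × ℝ) (Option κ) lam 0 0 0) : T → PtX M (Option κ) lam 0 0 0 :=
  𝔉.eq0 0 0 0 + fun _ => ∑ a, tau (P a) o R t (e a - eq0 (P a).D.B (P a).D.G 0 0 0)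

theorem bW_eq : bW P o R t o.m.N = (P.sl o (R + 1) t).W := Pi.single_eq_same _ _

theorem bΦ_eq : bΦ P o R t o.m.N = (P.sl o (R + 1) t).Φ := Pi.single_eq_same _ _

end defs

theorem aff_val0 (h : 𝔉.OK) {o : Ref 𝔉} {e : T → PtX M (Option κ) lam 0 0 0} {j : ℕ}
    (he : Aff o (Fs 𝔉) 0 0 0 e) (hj : 7 ≤ j) : ∃ g : o.C 0 j → o.Y 0 0 (j + 1),
    ContDiffOn ℝ ∞ g (o.U 0 j) ∧ ∀ y : Pnt o 0,
      𝔉.F0.val _ _ (g (y.pt j)).1 = eD 0 0 (bs y) + (vD e y - eD 0 0 y) ∧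
      𝔉.F0.val _ _ (g (y.pt j)).2.1 = eC 0 0 (bs y) + (vC e y - eC 0 0 y) := by
  obtain ⟨g, g1, g2⟩ := he j hj
  refine ⟨g, g1, fun y => ?_⟩
  obtain ⟨a1, a2, -⟩ := (adj_rem h).val_f0 (n := 0) (m := 0) (k := j) (by omega) y
  obtain ⟨c1, c2, -⟩ := snd_snd (iY_apply (k := j) (g (y.pt j)))
  have d1 := (g2 y).D
  have d2 := (g2 y).C
  rw [Prod.fst_add, val_add, a1, c1, val_incl h.sup (by omega) j.le_succ] at d1
  rw [Prod.snd_add, Prod.fst_add, val_add, a2, c2, val_incl h.sup (by omega) j.le_succ] at d2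
  have q : ∀ {V : Type} [AddCommGroup V] {u v w s : V}, u - v + w = s → w = v + (s - u) :=
    fun h => by rw [← h]; abel
  exact ⟨q d1, q d2⟩

variable {δ R : ℝ} {X : Ends 𝔉 δ} {o : Ref 𝔉} {t : T} {j k : ℕ}

theorem tau_off {P : End 𝔉} {σ : PtX (P.Y.M × ℝ) (Option κ) lam 0 0 0} {y : Pnt o 0} {x : M}
    (h : P.θ (R + 1 + 1) x = 0) :
    vD (fun _ => tau P o R t σ) y x = 0 ∧ vC (fun _ => tau P o R t σ) y x = 0 :=
  ⟨indicator_apply_eq_zero.2 fun _ => smul_eq_zero_of_left h _,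
    indicator_apply_eq_zero.2 fun _ => smul_eq_zero_of_left h _⟩

theorem v_sum {A : Type} (s : Finset A) (τ : A → PtX M (Option κ) lam 0 0 0) (y : Pnt o 0) :
    vD (fun _ => ∑ a ∈ s, τ a) y = ∑ a ∈ s, vD (fun _ => τ a) y ∧
      vC (fun _ => ∑ a ∈ s, τ a) y = ∑ a ∈ s, vC (fun _ => τ a) y := by
  induction s using Finset.cons_induction with
  | empty => exact ⟨indicator_zero' _, indicator_zero' _⟩
  | cons a s h ih =>
    simp only [Finset.sum_cons, ← ih.1, ← ih.2]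
    exact ⟨indicator_add' _ _ _, indicator_add' _ _ _⟩

section one
variable (l : X.Lit o R) {a : X.A} (ha : X.Act a) (ht : t ∈ 𝔉.Q)
  (h : (X.P a).D.Adm ((X.P a).sl o (R + 1) t))
  (h0 : ∀ x ∉ (X.P a).O' R, ((X.P a).sl o (R + 1) t).Φ x.1 = 0)
include l ha ht

theorem mb : X.Mb a (R + 1) o.P1 (refZ T0 δ h h0).P1 ∧ X.Mb a (R + 1) o.Pp (refZ T0 δ h h0).Pp ∧
    X.Mb a (R + 1) o.Pm (refZ T0 δ h h0).Pm ∧ X.Mb a (R + 1) o.P2 (refZ T0 δ h h0).P2 := by
  have b1 : X.R ≤ R + 1 := by linarith [l.le]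
  have b2 : 1 ≤ R + 1 := by linarith [l.le, X.R0]
  have g := (X.okP a).gRel X.ok ht
  have k : ∀ z ∈ (X.P a).H (R + 1), (refZ T0 δ h h0).P1 z = o.P1 ((X.P a).K.ψ z) ∧
      (refZ T0 δ h h0).Pp z = o.Pp ((X.P a).K.ψ z) ∧ (refZ T0 δ h h0).Pm z = o.Pm ((X.P a).K.ψ z) ∧
      (refZ T0 δ h h0).P2 z = o.P2 ((X.P a).K.ψ z) := fun z hz => by
    have z1 : z ∈ (X.P a).H R := (lt_add_one R).trans hz
    have z2 : z ∈ (X.P a).H X.R := b1.trans_lt hz
    obtain ⟨e1, e2, e3, -⟩ := (l.lit a).at ht z1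
    have e4 : (refZ T0 δ h h0).Pg z = o.Pg ((X.P a).K.ψ z) :=
      (indicator_of_mem (mem_univ z) _).trans ((pg_loc (ψ := (X.P a).K.ψ) e1.symm
        (fun b => (e2 b).symm) e3.symm).trans
        (indicator_of_mem (ha ((X.okP a).ψ_mem le_rfl z2)) o.m.pg).symm)
    have e5 := pp_loc (J := o.m.J) (j := (refZ T0 δ h h0).m.j) (j' := o.m.j)
      (p := (refZ T0 δ h h0).m.p) (p' := o.m.p) (ρ := (refZ T0 δ h h0).m.ρ) (ρ' := o.m.ρ) g z2
      e1.symm fun b => (e2 b).symm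
    have e6 := (X.okP a).mem_O' X.ok l.le z1 z
    refine ⟨congrArg₂ idx (funext₂ fun b c => g.P b c z z2) e4, ?_, ?_,
      congrArg₂ idx (sd_loc g z2) e4⟩ <;> by_cases hO : z ∈ (X.P a).O' R
    exacts [(indicator_of_mem hO _).trans (e5.1.trans (indicator_of_mem (e6.1 hO) _).symm),
      (indicator_of_notMem hO _).trans (indicator_of_notMem (mt e6.2 hO) _).symm,
      (indicator_of_mem hO _).trans (e5.2.trans (indicator_of_mem (e6.1 hO) _).symm),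
      (indicator_of_notMem hO _).trans (indicator_of_notMem (mt e6.2 hO) _).symm]
  exact ⟨⟨b1, b2, fun z hz => (k z hz).1⟩, ⟨b1, b2, fun z hz => (k z hz).2.1⟩,
    ⟨b1, b2, fun z hz => (k z hz).2.2.1⟩, b1, b2, fun z hz => (k z hz).2.2.2⟩

/-- restriction of points -/
def rp (y : Pnt o 0) : Pnt (refZ T0 δ h h0) 0 where
  α z := (X.P a).θZ (R + 1 + 1) z • y.α ((X.P a).K.ψ z)
  φ z := (X.P a).θZ (R + 1 + 1) z • y.φ ((X.P a).K.ψ z)
  z := 0
  t := 0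
  hα k hk := let ⟨u, e⟩ := y.hα k hk
    ⟨_, funext fun z => ((mb l ha ht h h0).1.val_rs hk u z).trans (by rw [e])⟩
  hφ k hk := let ⟨u, e⟩ := y.hφ k hk
    ⟨_, funext fun z => ((mb l ha ht h h0).2.1.val_rs hk u z).trans (by rw [e])⟩
  ht := trivial

theorem exists_rs (hj : 3 ≤ j) : ∃ L : o.C 0 j →L[ℝ] (refZ T0 δ h h0).C 0 j,
    ∀ y, L (y.pt j) = (rp l ha ht h h0 y).pt j :=
  ⟨(X.rs a _ (R + 1) _ o.P1 _).prodMap ((X.rs a _ (R + 1) _ o.Pp _).prodMap 0), fun y =>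
    Prod.ext (ofV_eq (X.okZ a R).sup (by omega) (funext fun z =>
      ((mb l ha ht h h0).1.val_rs (by omega) (y.pt j).1 z).trans (by rw [y.val_α hj]; rfl))).symm
    (Prod.ext (ofV_eq (X.okZ a R).sup (by omega) (funext fun z =>
      ((mb l ha ht h h0).2.1.val_rs (by omega) (y.pt j).2.1 z).trans
        (by rw [y.val_φ hj]; rfl))).symm rfl)⟩

omit l ha ht in
theorem W_cyl (y : Pnt (refZ T0 δ h h0) 0) (b : Option κ) (z : (X.P a).Y.M × ℝ) :
    y.cfg.W b z = ((X.P a).sl o (R + 1) t).W b z.1 + opL (y.α z b) := by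
  have e := idx_sum (o := refZ T0 δ h h0) (y.pα (X.okZ a R) z) b
  refine (W_apply _ _ _ _).trans (congrArg₂ (· + ·) ?_ ?_)
  · have : (refZ T0 δ h h0).B0 := ⟨rfl⟩
    rw [Ref.A_eq]
    refine Eq.trans ?_ (h.adm.conn.cc.proj b z)
    simp only [Fam.W0, famZ, wtF, cst, zero_smul, Finset.sum_const_zero, add_zero]
    rfl
  · rw [← e, map_sum]; simp only [map_smul]; rfl

omit ha in
theorem W_end (y : Pnt o 0) (hy : y.t = t) (b : Option κ) {z : (X.P a).Y.M × ℝ}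
    (hz : z ∈ (X.P a).H R) : y.cfg.W b ((X.P a).K.ψ z) =
      ((X.P a).sl o (R + 1) t).W b z.1 + opL (y.α ((X.P a).K.ψ z) b) := by
  subst hy
  have e := idx_sum (y.pα X.ok ((X.P a).K.ψ z)) b
  have s := fun c => ((X.okP a).S _ ht _ ((X.okP a).ψ_mem le_rfl (l.le.trans_lt hz)) b c).1
  rw [← ((l.lit a).at ht hz).2.2.2.1 b, ← e, map_sum]
  simp only [Pnt.cfg, W_apply, s, map_smul, Pi.zero_apply, PiLp.zero_apply, map_zero, smul_zero,
    Finset.sum_const_zero, add_zero]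

theorem ct_eq (y : Pnt o 0) (hy : y.t = t) :
    ct (X.P a) o R t y.cfg = (rp l ha ht h h0 y).cfg := by
  have k : ∀ z, (X.P a).θZ (R + 1 + 1) z = 0 ∨ z ∈ (X.P a).H R := fun z =>
    (le_or_gt ((X.P a).sg * z.2) R).imp_left fun e => hc_zero (by linarith)
  have k1 : ∀ b z, bW _ o R t o.m.N b z.1 + (X.P a).θZ (R + 1 + 1) z •
      (o.W y.t y.α b ((X.P a).K.ψ z) - bW _ o R t o.m.N b z.1) = ((X.P a).sl o (R + 1) t).W b z.1 +
        opL ((X.P a).θZ (R + 1 + 1) z • y.α ((X.P a).K.ψ z) b) := fun b z => by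
    rw [bW_eq, map_smul]
    rcases k z with e | e
    · rw [e, zero_smul, zero_smul]
    · exact congrArg (_ + _ • ·) (sub_eq_of_eq_add' (W_end l ht y hy b e))
  have k2 : ∀ z, bΦ _ o R t o.m.N z.1 + (X.P a).θZ (R + 1 + 1) z • (o.Φ0 ((X.P a).K.ψ z) +
      y.φ ((X.P a).K.ψ z) - bΦ _ o R t o.m.N z.1) = o.Φ0 ((X.P a).pt (R + 1) z.1) +
        (X.P a).θZ (R + 1 + 1) z • y.φ ((X.P a).K.ψ z) := fun z => by
    rw [show bΦ _ o R t o.m.N z.1 = o.Φ0 ((X.P a).pt (R + 1) z.1) from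
      congrFun (bΦ_eq _ o R t) _]
    rcases k z with e | e
    · simp only [e, zero_smul]
    · have : o.Φ0 ((X.P a).K.ψ z) = o.Φ0 ((X.P a).pt (R + 1) z.1) := ((l.lit a).at ht e).2.2.2.2
      simp only [this, add_sub_cancel_left]
  have k3 := fun b z => (k1 b z).trans (W_cyl h h0 (rp l ha ht h h0 y) b z).symm
  exact Pj41.cfg_ext rfl rfl rfl (funext₂ k3) (funext k2)

theorem eD_end {y : Pnt o 0} (hy : y.t = t) {y' : Pnt (refZ T0 δ h h0) 0} {b : ℝ} (hb : R ≤ b)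
    (e : ∀ z ∈ (X.P a).H b, y.α ((X.P a).K.ψ z) = y'.α z ∧ y.φ ((X.P a).K.ψ z) = y'.φ z)
    {z : (X.P a).Y.M × ℝ} (hz : z ∈ (X.P a).H b) :
    eD 0 0 y' z = eD 0 0 y ((X.P a).K.ψ z) ∧ eC 0 0 y' z = eC 0 0 y ((X.P a).K.ψ z) := by
  have z1 : z ∈ (X.P a).H R := hb.trans_lt hz
  have z2 : z ∈ (X.P a).H X.R := l.le.trans_lt z1
  have ev := ((X.P a).isOpen_H b).eventually_mem hz
  obtain ⟨e1, e2, e3, -⟩ := (l.lit a).at ht z1
  have e6 := (X.okP a).mem_O' X.ok l.le z1 z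
  have := eq0_loc (J := o.m.J) (n := 0) (m := 0) (z := y'.z) (z' := y.z) (W := y'.cfg.W)
    (j := (refZ T0 δ h h0).m.j) (j' := o.m.j) (p := (refZ T0 δ h h0).m.p) (p' := o.m.p)
    (ρ := (refZ T0 δ h h0).m.ρ) (ρ' := o.m.ρ) (W' := y.cfg.W) (Φ := y'.cfg.Φ) (Φ' := y.cfg.Φ) ((X.okP a).gRel X.ok y.ht) z2 e1.symm
    (fun b => (e2 b).symm) e3.symm
    (fun c => ev.mono fun w hw => by
      rw [W_cyl, W_end l ht y hy c (hb.trans_lt hw), (e w hw).1])
    (ev.mono fun w hw => congrArg₂ (· + ·) ((l.lit a).at ht (hb.trans_lt hw)).2.2.2.2.symm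
      (e w hw).2.symm)
  refine ⟨?_, (indicator_of_mem (mem_univ z) _).trans (this.2.trans
    (indicator_of_mem (ha ((X.okP a).ψ_mem le_rfl z2)) _).symm)⟩
  by_cases hO : z ∈ (X.P a).O' R
  exacts [(indicator_of_mem hO _).trans (this.1.trans (indicator_of_mem (e6.1 hO) _).symm),
    (indicator_of_notMem hO _).trans (indicator_of_notMem (mt e6.2 hO) _).symm]

variable {e : PtX ((X.P a).Y.M × ℝ) (Option κ) lam 0 0 0}

theorem ind_tau {y : Pnt o 0} (hy : y.t = t) (x : M) :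
    vD (fun _ => tau _ o R t e) y x = (X.P a).θ (R + 1 + 1) x •
      vD (fun _ => e) (rp l ha ht h h0 y) ((X.P a).K.ψ.symm x) ∧
    vC (fun _ => tau _ o R t e) y x = (X.P a).θ (R + 1 + 1) x •
      vC (fun _ => e) (rp l ha ht h h0 y) ((X.P a).K.ψ.symm x) := by
  by_cases k : (X.P a).θ (R + 1 + 1) x = 0
  · exact ⟨(tau_off k).1.trans (smul_eq_zero_of_left k _).symm,
      (tau_off k).2.trans (smul_eq_zero_of_left k _).symm⟩
  obtain ⟨z, hz, rfl⟩ := (X.okP a).of_θ (by linarith [l.le]) k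
  have z1 : z ∈ (X.P a).H R := lt_trans (b := R + 1 + 1) (by linarith) hz
  have z2 : z ∈ (X.P a).H X.R := l.le.trans_lt z1
  have e6 := (X.okP a).mem_O' X.ok l.le z1 ((X.P a).K.ψ.symm ((X.P a).K.ψ z))
  have q : ∀ {c c' : Cfg ((X.P a).Y.M × ℝ) (Option κ) lam 0}, c = c' →
      HEq (e.D c) (e.D c') ∧ HEq (e.C c) (e.C c') := fun h => h ▸ ⟨.rfl, .rfl⟩
  have q := q (ct_eq l ha ht h h0 y hy)
  refine ⟨?_, (indicator_of_mem (ha ((X.okP a).ψ_mem le_rfl z2)) _).trans (congrArg (_ • ·)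
    ((congrFun (eq_of_heq q.2) _).trans (indicator_of_mem (mem_univ _) _).symm))⟩
  by_cases hO : (X.P a).K.ψ.symm ((X.P a).K.ψ z) ∈ (X.P a).O' R
  · exact (indicator_of_mem (e6.1 hO) _).trans (congrArg (_ • ·)
      ((congrFun (eq_of_heq q.1) _).trans (indicator_of_mem hO _).symm))
  · exact (indicator_of_notMem (mt e6.2 hO) _).trans
      (smul_eq_zero_of_right _ (indicator_of_notMem hO _)).symm

omit l ha ht in
theorem v_sub (y : Pnt (refZ T0 δ h h0) 0) :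
    vD (fun _ => e - eq0 (X.P a).D.B (X.P a).D.G 0 0 0) y = vD (fun _ => e) y - eD 0 0 y ∧
    vC (fun _ => e - eq0 (X.P a).D.B (X.P a).D.G 0 0 0) y = vC (fun _ => e) y - eC 0 0 y :=
  ⟨indicator_sub' _ _ _, indicator_sub' _ _ _⟩

omit l ha ht in
theorem aff_val (he : Aff (refZ T0 δ h h0) (Fs (famZ T0 (X.P a).D δ ((X.P a).O' R))) 0 0 0
    fun _ => e) (hj : 7 ≤ j) : ∃ g : (refZ T0 δ h h0).C 0 j → (refZ T0 δ h h0).Y 0 0 (j + 1),
    ContDiff ℝ ∞ g ∧ ∀ y : Pnt (refZ T0 δ h h0) 0,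
      (X.FZ a _).val _ _ (g (y.pt j)).1 = eD 0 0 (bs y) +
        vD (fun _ => e - eq0 (X.P a).D.B (X.P a).D.G 0 0 0) y ∧
      (X.FZ a _).val _ _ (g (y.pt j)).2.1 = eC 0 0 (bs y) +
        vC (fun _ => e - eq0 (X.P a).D.B (X.P a).D.G 0 0 0) y := by
  obtain ⟨g, g1, g2⟩ := aff_val0 (X.okZ a R) he hj
  exact ⟨g, contDiffOn_univ.1 g1, fun y =>
    ⟨(g2 y).1.trans (congrArg (_ + ·) (v_sub h h0 y).1.symm),
      (g2 y).2.trans (congrArg (_ + ·) (v_sub h h0 y).2.symm)⟩⟩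

theorem exists_g (he : Aff (refZ T0 δ h h0) (Fs (famZ T0 (X.P a).D δ ((X.P a).O' R))) 0 0 0
    fun _ => e) (hj : 7 ≤ j) : ∃ g : o.C 0 j → o.Y 0 0 (j + 1), ContDiff ℝ ∞ g ∧
    ∀ y : Pnt o 0, y.t = t → ∀ x,
      𝔉.F0.val _ _ (g (y.pt j)).1 x = (X.P a).θ (R + 1 + 1) x • eD 0 0 (bs y) x +
        vD (fun _ => tau _ o R t (e - eq0 (X.P a).D.B (X.P a).D.G 0 0 0)) y x ∧
      𝔉.F0.val _ _ (g (y.pt j)).2.1 x = (X.P a).θ (R + 1 + 1) x • eC 0 0 (bs y) x +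
        vC (fun _ => tau _ o R t (e - eq0 (X.P a).D.B (X.P a).D.G 0 0 0)) y x := by
  obtain ⟨g, g1, g2⟩ := aff_val h h0 he hj
  obtain ⟨L, hL⟩ := exists_rs l ha ht h h0 (j := j) (by omega)
  have m := mb l ha ht h h0
  let L' : (refZ T0 δ h h0).Y 0 0 (j + 1) →L[ℝ] o.Y 0 0 (j + 1) :=
    (X.ex a _ (R + 1) _ o.Pm _).prodMap ((X.ex a _ (R + 1) _ o.P2 _).prodMap 0)
  refine ⟨fun v => L' (g (L v)), L'.contDiff.comp (g1.comp L.contDiff), fun y hy x => ?_⟩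
  have k : (X.P a).θ (R + 1 + 1) x • eD 0 0 (bs (rp l ha ht h h0 y)) ((X.P a).K.ψ.symm x) =
      (X.P a).θ (R + 1 + 1) x • eD 0 0 (bs y) x ∧
      (X.P a).θ (R + 1 + 1) x • eC 0 0 (bs (rp l ha ht h h0 y)) ((X.P a).K.ψ.symm x) =
      (X.P a).θ (R + 1 + 1) x • eC 0 0 (bs y) x := by
    by_cases k : (X.P a).θ (R + 1 + 1) x = 0
    · exact ⟨(smul_eq_zero_of_left k _).trans (smul_eq_zero_of_left k _).symm,
        (smul_eq_zero_of_left k _).trans (smul_eq_zero_of_left k _).symm⟩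
    obtain ⟨z, hz, rfl⟩ := (X.okP a).of_θ (by linarith [l.le]) k
    have := eD_end l ha ht h h0 (y := bs y) hy (y' := bs (rp l ha ht h h0 y)) (b := R + 1 + 1)
      (by linarith) (fun _ _ => ⟨rfl, rfl⟩) hz
    rw [(X.P a).K.ψ.left_inv ((X.okP a).src (le_trans (by linarith [l.le]) hz.le))]
    exact ⟨congrArg (_ • ·) this.1, congrArg (_ • ·) this.2⟩
  have d := g2 (rp l ha ht h h0 y)
  have i := ind_tau l ha ht h h0 (e := e - eq0 (X.P a).D.B (X.P a).D.G 0 0 0) hy x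
  rw [← hL] at d
  exact ⟨(m.2.2.1.val_ex (by omega) (g (L (y.pt j))).1 x).trans ((congrArg (_ • ·)
      (congrFun d.1 _)).trans ((smul_add _ _ _).trans (congrArg₂ (· + ·) k.1 i.1.symm))),
    (m.2.2.2.val_ex (by omega) (g (L (y.pt j))).2.1 x).trans ((congrArg (_ • ·)
      (congrFun d.2 _)).trans ((smul_add _ _ _).trans (congrArg₂ (· + ·) k.2 i.2.symm)))⟩

end one

variable {A : Type} [Fintype A] {i : A → X.A} (l : X.Lit o R) (hi : Injective i)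
  (ha : ∀ a, X.Act (i a)) (ht : t ∈ 𝔉.Q)
  {e : ∀ a, PtX ((X.P (i a)).Y.M × ℝ) (Option κ) lam 0 0 0}
include l hi ha ht

theorem loc_eR (a : A) (h : (X.P (i a)).D.Adm ((X.P (i a)).sl o (R + 1) t))
    (h0 : ∀ x ∉ (X.P (i a)).O' R, ((X.P (i a)).sl o (R + 1) t).Φ x.1 = 0) (hk : 3 ≤ k)
    (H : LocZ (δ := δ) h h0 k (e a) (X.P (i a)).sg) :
    (X.P (i a)).Loc o k δ R (eR (fun a => X.P (i a)) o R t e) t h h0 (e a) := by
  intro b ρ hb ε hε
  obtain ⟨L, hL⟩ := exists_rs l (ha a) ht h h0 hk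
  obtain ⟨c, hc⟩ := H (max b (R + 1 + 1 + 1)) (max ρ (‖L‖ * ρ)) ε hε
  refine ⟨max c (R + 1 + 1 + 1), fun y y' hy n1 n2 e1 => ?_⟩
  have k1 : ∀ z ∈ (X.P (i a)).H (R + 1 + 1 + 1), y.α ((X.P (i a)).K.ψ z) =
      (rp l (ha a) ht h h0 y).α z ∧ y.φ ((X.P (i a)).K.ψ z) = (rp l (ha a) ht h h0 y).φ z :=
    fun z hz => by
      simp only [rp, show (X.P (i a)).θZ _ z = 1 from hc_one hz.le, one_smul, and_self]
  obtain ⟨n3, n4⟩ := hc (rp l (ha a) ht h h0 y) y' (hL y ▸ (L.le_opNorm _).trans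
    ((mul_le_mul_of_nonneg_left n1 (norm_nonneg _)).trans (le_max_right _ _)))
    (n2.trans (le_max_left _ _)) fun z hz =>
      have k2 := k1 z ((le_max_right _ _).trans_lt hz)
      have k3 := e1 z ((le_max_left _ _).trans_lt hz)
      ⟨k2.1.symm.trans k3.1, k2.2.symm.trans k3.2⟩
  have k2 : ∀ z ∈ (X.P (i a)).H (R + 1 + 1 + 1),
      vD (eR (fun a => X.P (i a)) o R t e) y ((X.P (i a)).K.ψ z) =
        vD (fun _ => e a) (rp l (ha a) ht h h0 y) z ∧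
      vC (eR (fun a => X.P (i a)) o R t e) y ((X.P (i a)).K.ψ z) =
        vC (fun _ => e a) (rp l (ha a) ht h h0 y) z := fun z hz => by
    have hx := (X.okP (i a)).ψ_mem (by linarith [l.le]) hz
    have k3 := eD_end l (ha a) ht h h0 hy (by linarith) k1 hz
    have k4 := ind_tau l (ha a) ht h h0 (e := e a - eq0 (X.P (i a)).D.B (X.P (i a)).D.G 0 0 0) hy
      ((X.P (i a)).K.ψ z)
    rw [(X.P _).K.ψ.left_inv ((X.okP _).src (le_trans (by linarith [l.le]) hz.le)),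
      show (X.P (i a)).θ (R + 1 + 1) _ = 1 from hc_one hx.2.le, one_smul, one_smul,
      (v_sub h h0 _).1, (v_sub h h0 _).2] at k4
    have s := v_sum Finset.univ (fun a => tau (X.P (i a)) o R t
      (e a - eq0 (X.P (i a)).D.B (X.P (i a)).D.G 0 0 0)) y
    have k6 := fun a' (n : a' ≠ a) => tau_off (o := o) (t := t) (y := y) (R := R)
      (σ := e a' - eq0 (X.P (i a')).D.B (X.P (i a')).D.G 0 0 0) (X.θ_off (hi.ne n.symm)
        (by linarith [l.le]) ((X.P _).U_mono (by linarith [l.le]) hx))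
    exact ⟨(congrFun (indicator_add' _ _ _) _).trans ((congrArg₂ (· + ·) k3.1.symm
        ((congrFun s.1 _).trans ((Finset.sum_apply _ _ _).trans ((Finset.sum_eq_single a
          (fun a' _ n => (k6 a' n).1) (by simp)).trans k4.1)))).trans (add_sub_cancel _ _)),
      (congrFun (indicator_add' _ _ _) _).trans ((congrArg₂ (· + ·) k3.2.symm
        ((congrFun s.2 _).trans ((Finset.sum_apply _ _ _).trans ((Finset.sum_eq_single a
          (fun a' _ n => (k6 a' n).2) (by simp)).trans k4.2)))).trans (add_sub_cancel _ _))⟩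
  have mA : MeasurableSet {z : (X.P (i a)).Y.M × ℝ | max c (R + 1 + 1 + 1) < (X.P (i a)).sg * z.2} :=
    ((X.P _).isOpen_H _).measurableSet
  have ev := fun (z : (X.P (i a)).Y.M × ℝ) (hz : max c (R + 1 + 1 + 1) < (X.P (i a)).sg * z.2) =>
    (((X.P (i a)).isOpen_H _).eventually_mem ((le_max_right _ _).trans_lt hz)).mono k2
  have sub : {z : (X.P (i a)).Y.M × ℝ | max c (R + 1 + 1 + 1) < (X.P (i a)).sg * z.2} ⊆
      {z | c < (X.P (i a)).sg * z.2} := fun z hz => lt_of_le_of_lt (le_max_left c _) hz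
  exact ⟨(Gl67.N_congr mA fun z hz => (ev z hz).mono fun w hw => congrArg (· - _) hw.1).trans_le
      ((Gl67.N_mono sub).trans n3),
    (Gl67.N_congr mA fun z hz => (ev z hz).mono fun w hw => congrArg (· - _) hw.2).trans_le
      ((Gl67.N_mono sub).trans n4)⟩

theorem aff_eR (hs : ∀ a, X.Act a → a ∈ range i) (hQ : ∀ s ∈ 𝔉.Q, s = t)
    (H : ∀ a (h : (X.P (i a)).D.Adm ((X.P (i a)).sl o (R + 1) t))
      (h0 : ∀ x ∉ (X.P (i a)).O' R, ((X.P (i a)).sl o (R + 1) t).Φ x.1 = 0), Aff (refZ T0 δ h h0)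
      (Fs (famZ T0 (X.P (i a)).D δ ((X.P (i a)).O' R))) 0 0 0 fun _ => e a) :
    Aff o (Fs 𝔉) 0 0 0 (eR (fun a => X.P (i a)) o R t e) := (adj_rem X.ok).aff_of fun j hj => by
  have J := adj_rem X.ok
  have b1 : X.R ≤ R + 1 + 1 := by linarith [l.le]
  choose g g1 g2 using fun a => exists_g l (ha a) ht _ _
    (H a ((l.lit _).adm X.ok (X.okP _) l.le ht) (End.off X.ok (X.okP _) l.le)) hj
  have n1 : ∀ x, o.Pm x (f2 _ _ ((bd o).N (Fs 𝔉 t) (u0 o t) x)) = eD 0 0 (bs (pt0 o 0 ht)) x :=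
    fun x => by
      have := J.f2_N (n := 0) (m := 0) (bs (pt0 o 0 ht)) x
      rwa [uy_bs] at this
  have n2 : ∀ x, o.P2 x (s2 _ _ ((bd o).N (Fs 𝔉 t) (u0 o t) x)) = eC 0 0 (bs (pt0 o 0 ht)) x :=
    fun x => by
      have := J.s2_N (n := 0) (m := 0) (bs (pt0 o 0 ht)) x
      rwa [uy_bs] at this
  let u : Sec I (bd o).pE := ⟨fun x => (1 - ∑ a, (X.P (i a)).θ (R + 1 + 1) x) •
    (bd o).pE x ((bd o).N (Fs 𝔉 t) (u0 o t) x), (contMDiff_const.sub (contMDiff_finsetSum fun a _ =>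
      (X.cb_θ _ b1).choose_spec.1)).smul (J.sb_N.cb t ht).choose_spec.1,
    X.hcs (R + 1 + 1 + 1) fun a x hx => by
      have hx' := (X.P a).U_mono (show X.R ≤ _ by linarith) hx
      by_cases k : X.Act a
      · obtain ⟨a, rfl⟩ := hs a k
        rw [Finset.sum_eq_single a (fun a' _ n => X.θ_off (hi.ne n.symm) b1 hx') (by simp),
          show (X.P (i a)).θ _ x = 1 from hc_one hx.2.le, sub_self, zero_smul]
      · have k1 := ((X.okP a).dich X.ok.Om le_rfl).resolve_left k hx'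
        exact smul_eq_zero_of_right _ (ext2
          ((f2_ps _ _).trans ((n1 x).trans ((indicator_of_notMem (mt (X.ok.sub ·) k1) _).trans
            (map_zero _).symm)))
          ((s2_ps _ _).trans ((n2 x).trans ((indicator_of_notMem k1 _).trans (map_zero _).symm)))),
    fun x => by rw [map_smul, (ok_bd o X.ok).prjE.idem]⟩
  refine ⟨fun v => jY o 0 0 (j + 1) (𝔉.F0.toH _ _ u) + ∑ a, g a v,
    (contDiff_const.add (ContDiff.sum fun a _ => g1 a)).contDiffOn, fun y => ?_⟩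
  have hy := hQ _ y.ht
  have e0 : bs y = bs (pt0 o 0 ht) := by
    obtain ⟨_, _, z, _, _, _, _⟩ := y
    obtain rfl := Subsingleton.elim z 0
    subst hy; rfl
  have s := v_sum Finset.univ (fun a => tau (X.P (i a)) o R t
    (e a - eq0 (X.P (i a)).D.B (X.P (i a)).D.G 0 0 0)) y
  have S := X.ok.sup
  have q : ∀ {V : Type} [AddCommGroup V] [Module ℝ V] (θ : A → ℝ) (v : V) (w : A → V),
      (1 - ∑ a, θ a) • v + ∑ a, (θ a • v + w a) - v = ∑ a, w a := fun θ v w => by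
    rw [Finset.sum_add_distrib, ← Finset.sum_smul, sub_smul, one_smul]; abel
  have k := fun x => congrFun (val_toH S (by omega : 4 ≤ j + 1) u) x
  refine ⟨(funext fun x => ?_).trans s.1.symm, (funext fun x => ?_).trans s.2.symm,
    Subsingleton.elim _ _⟩
  · have k1 : 𝔉.F0.val _ _ (jY o 0 0 (j + 1) (𝔉.F0.toH _ _ u)).1 x =
        (1 - ∑ a, (X.P (i a)).θ (R + 1 + 1) x) • eD 0 0 (bs y) x :=
      (val_mulH S (by omega) (Cb_const _) maps_f2 _ x).trans ((congrArg _ (k x)).trans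
        ((map_smul _ _ _).trans (congrArg (_ • ·) ((f2_ps _ _).trans ((n1 x).trans (by rw [e0]))))))
    rw [Prod.fst_add, Prod.fst_sum, val_add, Pi.sub_apply, Pi.add_apply, val_sum, k1,
      Finset.sum_congr rfl fun a _ => (g2 a y hy x).1, q, Finset.sum_apply]
  · have k1 : 𝔉.F0.val _ _ (jY o 0 0 (j + 1) (𝔉.F0.toH _ _ u)).2.1 x =
        (1 - ∑ a, (X.P (i a)).θ (R + 1 + 1) x) • eC 0 0 (bs y) x :=
      (val_mulH S (by omega) (Cb_const _) maps_s2 _ x).trans ((congrArg _ (k x)).trans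
        ((map_smul _ _ _).trans (congrArg (_ • ·) ((s2_ps _ _).trans ((n2 x).trans (by rw [e0]))))))
    rw [Prod.snd_add, Prod.fst_add, Prod.snd_sum, Prod.fst_sum, val_add, Pi.sub_apply,
      Pi.add_apply, val_sum, k1, Finset.sum_congr rfl fun a _ => (g2 a y hy x).2, q,
      Finset.sum_apply]

end Crest.Agent.X212.Rz57
end
end

-- ▼ part X212/Ixm76/Abs
section

/-! # Row 212, IX-MON (helper76): comparison of two Fredholm indices -/

set_option autoImplicit false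
noncomputable section
open Set Function Module

namespace Crest.Agent.X212.Ixm76
open Fred93

/-- the kernel injects, the cokernel surjects -/
theorem fr_le {X X' Y Y' : Type*} [NormedAddCommGroup X] [NormedSpace ℝ X] [NormedAddCommGroup X']
    [NormedSpace ℝ X'] [NormedAddCommGroup Y] [NormedSpace ℝ Y] [NormedAddCommGroup Y']
    [NormedSpace ℝ Y'] {L : X →L[ℝ] Y} {L' : X' →L[ℝ] Y'} {i : X' →L[ℝ] X} {j : Y' →L[ℝ] Y}
    (hi : Injective i) (hj : DenseRange j) (e : ∀ x, L (i x) = j (L' x)) {n n' : ℤ} (h : Fr L n)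
    (h' : Fr L' n') : n' ≤ n := by
  have := h.1.finite_ker
  have : FiniteDimensional ℝ (Y ⧸ L.range) := h.1.finite_coker
  have : FiniteDimensional ℝ (Y' ⧸ L'.range) := h'.1.finite_coker
  have h1 : finrank ℝ L'.ker ≤ finrank ℝ L.ker :=
    LinearMap.finrank_le_finrank_of_injective (f := (i : X' →ₗ[ℝ] X).restrict (p := L'.ker)
      (q := L.ker) fun x hx => (e x).trans ((congrArg j hx).trans (map_zero j)))
      fun x y hxy => Subtype.ext (hi (congrArg Subtype.val hxy))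
  have h2 : L.range ⊔ j.range = ⊤ := by
    have c := Submodule.isClosed_mono_of_finiteDimensional_quotient h.1.isClosed_range
      (le_sup_left : L.range ≤ L.range ⊔ j.range)
    refine eq_top_iff.2 fun y _ => c.closure_subset (closure_mono ?_ (hj y))
    exact fun z hz => Submodule.mem_sup_right hz
  have h3 : finrank ℝ (Y ⧸ L.range) ≤ finrank ℝ (Y' ⧸ L'.range) := by
    refine LinearMap.finrank_le_finrank_of_surjective (f := L'.range.mapQ L.range (j : Y' →ₗ[ℝ] Y)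
      (by rintro _ ⟨x, rfl⟩; exact ⟨i x, e x⟩)) fun y => ?_
    obtain ⟨y, rfl⟩ := Submodule.Quotient.mk_surjective _ y
    obtain ⟨a, ha, _, ⟨b, rfl⟩, rfl⟩ := Submodule.mem_sup.1 (h2.ge (Submodule.mem_top (x := y)))
    exact ⟨Submodule.Quotient.mk b, (Submodule.Quotient.eq _).2 (by simpa using ha)⟩
  rw [← h.2, ← h'.2, ind, ind, LinearMap.index_eq_finrank_sub, LinearMap.index_eq_finrank_sub]
  omega

variable {X X' Y Y' Z : Type} [NormedAddCommGroup X] [NormedSpace ℝ X] [NormedAddCommGroup X']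
  [NormedSpace ℝ X'] [NormedAddCommGroup Y] [NormedSpace ℝ Y] [NormedAddCommGroup Y']
  [NormedSpace ℝ Y'] [NormedAddCommGroup Z] [NormedSpace ℝ Z]

theorem fd_comm {f : X → Y} {f' : X' → Y'} {i : X' →L[ℝ] X} {j : Y' →L[ℝ] Y} {x' : X'} {x : X}
    (hx : i x' = x) (h1 : DifferentiableAt ℝ f x) (h2 : DifferentiableAt ℝ f' x')
    (e : f ∘ i =ᶠ[nhds x'] j ∘ f') (v : X') : fderiv ℝ f x (i v) = j (fderiv ℝ f' x' v) := by
  subst hx
  exact DFunLike.congr_fun ((h1.hasFDerivAt.comp _ i.hasFDerivAt).unique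
    ((j.hasFDerivAt.comp _ h2.hasFDerivAt).congr_of_eventuallyEq e)) v

theorem fr_le' {U U' V V' W W' : Type} [NormedAddCommGroup U] [NormedSpace ℝ U]
    [NormedAddCommGroup U'] [NormedSpace ℝ U'] [NormedAddCommGroup V] [NormedSpace ℝ V]
    [NormedAddCommGroup V'] [NormedSpace ℝ V'] [NormedAddCommGroup W] [NormedSpace ℝ W]
    [NormedAddCommGroup W'] [NormedSpace ℝ W'] {L : X × Y →L[ℝ] (U × V) × W}
    {L' : X' × Y' →L[ℝ] (U' × V') × W'} {n n' : ℤ} (h : Fr L n) (h' : Fr L' n') {i₁ : X' →L[ℝ] X}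
    {i₂ : Y' →L[ℝ] Y} {j₁ : U' →L[ℝ] U} {j₂ : V' →L[ℝ] V} {j₃ : W' →L[ℝ] W} (h₁ : Injective i₁)
    (h₂ : Injective i₂) (d₁ : DenseRange j₁) (d₂ : DenseRange j₂) (d₃ : DenseRange j₃)
    (e : ∀ a b, ∃ u v w, L' (a, b) = ((u, v), w) ∧ L (i₁ a, i₂ b) = ((j₁ u, j₂ v), j₃ w)) :
    n' ≤ n :=
  fr_le (i := i₁.prodMap i₂) (j := (j₁.prodMap j₂).prodMap j₃) (h₁.prodMap h₂)
    ((d₁.prodMap d₂).prodMap d₃) (fun ⟨a, b⟩ => by
      obtain ⟨u, v, w, e1, e2⟩ := e a b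
      rw [e1]; exact e2) h h'

variable (A : X →L[ℝ] X') (B : Y →L[ℝ] Y')

theorem pm3 (a : X) (b : Y) (z : Z) : A.prodMap (B.prodMap (.id ℝ Z)) (a, b, z) = (A a, B b, z) :=
  rfl

theorem pm_1 (v : X × Y × Z) : (A.prodMap (B.prodMap (.id ℝ Z)) v).1 = A v.1 := rfl

theorem pm_2 (v : X × Y × Z) : (A.prodMap (B.prodMap (.id ℝ Z)) v).2.1 = B v.2.1 := rfl

end Crest.Agent.X212.Ixm76
end
end

-- ▼ part X212/Ixm76/Rw

/-! # Row 212, IX-MON (helper76): the same family on two comparable Sobolev scales -/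

set_option autoImplicit false
set_option linter.unusedSectionVars false
noncomputable section
open scoped Manifold ContDiff Topology InnerProductSpace
open MeasureTheory Set Function Filter

namespace Crest.Agent.X212.Ixm76
open An An.Pre Sob92 Prm93 Fred93 Mod61 Map77 Nk89

variable {E : Type} [NormedAddCommGroup E] [NormedSpace ℝ E] [FiniteDimensional ℝ E]
  [MeasurableSpace E] [BorelSpace E]
  {HM : Type} [TopologicalSpace HM] {I : ModelWithCorners ℝ E HM} [I.Boundaryless]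
  {M : Type} [TopologicalSpace M] [ChartedSpace HM M] [IsManifold I ∞ M]
  [MeasurableSpace M] [T2Space M] [BorelSpace M] [SecondCountableTopology M]
  {ι : Type} [Fintype ι] {lam : Type} [Fintype lam]
  {T : Type} [NormedAddCommGroup T] [NormedSpace ℝ T]

section inc
variable {V W : Type} [NormedAddCommGroup V] [InnerProductSpace ℝ V] [CompleteSpace V]
  [NormedAddCommGroup W] [InnerProductSpace ℝ W] {F F' : Fr I M ι} {k j : ℕ}
  {p p' : M → V →L[ℝ] V} {q q' : M → W →L[ℝ] W} {S S' : ℝ} {u : M → V}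

variable (F F' k p p') in
/-- the inclusion of the stronger scale -/
def iH : F'.H k p' →L[ℝ] F.H k p := F'.liftT k k p' F.toPre p id

variable (h : Dom F'.toPre F.toPre) (e : p' = p)
include h e

theorem iH_dense : DenseRange (iH F F' k p p') := (F.dense_toH k p).mono <| by
  subst e
  rintro _ ⟨u, rfl⟩
  exact ⟨_, RepT_toH h.rep u⟩

omit [CompleteSpace V] in
theorem iH_rep (e' : q' = q) {A A' : (M → V) → M → W} {L' : F'.H k p' →L[ℝ] F'.H j q'}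
    {L : F.H k p →L[ℝ] F.H j q} (hL : F.Rep L A) (hL' : F'.Rep L' A') (eA : A' = A)
    (x : F'.H k p') : L (iH F F' k p p' x) = iH F F' j q q' (L' x) := by
  subst e e' eA
  exact DFunLike.congr_fun (RepT_eq (RepT_comp hL h.rep) (RepT_comp h.rep hL') fun _ => rfl) x

variable (hS : Sup F.toPre S) (hS' : Sup F'.toPre S')
include hS hS'

theorem val_iH (hk : 4 ≤ k) (x : F'.H k p') : F.val k p (iH F F' k p p' x) = F'.val k p' x := by
  subst e
  funext y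
  induction x using H_ind with
  | hP => exact isClosed_eq (by fun_prop) (by fun_prop)
  | h u => rw [iH, RepT_toH h.rep, val_toH hS hk, val_toH hS' hk]; rfl

theorem iH_inj (hk : 4 ≤ k) : Injective (iH F F' k p p') := fun a b e1 =>
  val_injective hS' hk (by rw [← val_iH h e hS hS' hk, e1, val_iH h e hS hS' hk])

theorem hs_iH (hu : u ∈ Hs F'.toPre p') : u ∈ Hs F.toPre p := fun k hk =>
  let ⟨a, e1⟩ := hu k hk
  ⟨_, (val_iH h e hS hS' hk a).trans e1⟩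

theorem iH_ofV (hk : 4 ≤ k) (hu : u ∈ Hs F'.toPre p') :
    iH F F' k p p' (ofV F'.toPre k p' u) = ofV F.toPre k p u :=
  (ofV_eq hS hk ((val_iH h e hS hS' hk _).trans (val_ofV hu hk))).symm

end inc

/-- another Sobolev frame -/
@[reducible] def rw (𝔉 : Mod61.Fam I M ι lam T) (F : Fr I M ι) : Mod61.Fam I M ι lam T :=
  { 𝔉 with F0 := F }

open Classical in
theorem mix_e {F F' : Pre I M ι} (h : F'.e = F.e) :
    Mix F F' fun a b _ => if a = b then 1 else 0 := fun a x => by simp [h]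

theorem cb_e {F F' : Pre I M ι} (h : F'.e = F.e) {N : Type} [NormedAddCommGroup N] [NormedSpace ℝ N]
    {f : M → N} (hf : F.Cb f) : F'.Cb f := (mix_e h).Cb (fun _ _ => Cb_const _) hf

theorem sb_e {F F' : Pre I M ι} (h : F'.e = F.e) {N : Type} [NormedAddCommGroup N] [NormedSpace ℝ N]
    {T : Type} [NormedAddCommGroup T] [NormedSpace ℝ T] {O : Set T} {f : T → M → N}
    (hf : SB F O f) : SB F' O f := (mix_e h).SB (fun _ _ => Cb_const _) hf

variable {𝔉 : Mod61.Fam I M ι lam T} {F' : Fr I M ι} {r n m k : ℕ}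

/-- the same reference -/
@[reducible] def rwR (o : Ref 𝔉) (he : F'.e = 𝔉.F0.e) : Ref (rw 𝔉 F') :=
  ⟨o.m, o.A0, o.Φ0, o.ok, o.conn, cb_e he o.cp, fun a => cb_e he (o.cρ a), cb_e he o.cj,
    fun a => cb_e he (o.cA a), cb_e he o.cΦ, o.pos, o.b, sb_e he o.sb, o.bP⟩

theorem ok_rw (h : 𝔉.OK) (he : F'.e = 𝔉.F0.e) (hP : F'.P = 𝔉.B.P) (ht : ∃ C, F'.Tame C)
    (hd : ∀ t ∈ 𝔉.Q, (𝔉.G t).F.μ = F'.μ) : (rw 𝔉 F').OK :=
  ⟨h.B, h.G0, h.G, ht, h.tameG, h.e0.trans he.symm, hP, fun a b c d => cb_e he (h.co a b c d),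
    cb_e he h.cl, h.opn, h.Om, h.Om', h.sub, fun t ht a x => he ▸ h.mix t ht a x, h.PS, h.SP, h.PSi,
    h.SiP, h.SSi, h.SiS, fun a b => sb_e he (h.sS a b), fun a b => sb_e he (h.sSi a b),
    fun a b c => sb_e he (h.scf a b c), fun a => sb_e he (h.sla a),
    fun a b c => sb_e he (h.sc a b c), fun a => sb_e he (h.sdv a), fun a => sb_e he (h.sa a),
    ⟨fun _ _ => 1, .fixed (Cb_const _), fun t ht => ⟨fun _ => one_pos, by simp [hd t ht]⟩⟩, h.conn⟩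

/-! ### the gauge row of another frame -/

section row
variable {o : Ref 𝔉}

variable (k) in
/-- the linearisation with the gauge row of the frame `G` -/
def lopG (G : Fr I M ι) (f : o.C r k → o.Y n m k) (y : Pnt o r) :
    CF o k →L[ℝ] YF o k × 𝔉.F0.H k o.Pg :=
  (prF o n m k ∘L fderiv ℝ f (y.pt k) ∘L inF o r k).prod
    ((bd o).RR 𝔉.F0.toPre G k (fld y) ∘L SH (k + 1) o (𝔉.S y.t) ∘L
      ((sumH 𝔉.F0.toPre (k + 1) o.P1 o.Pp).symm : CF o k →L[ℝ] 𝔉.F0.H (k + 1) (bd o).pC))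

theorem lopG_apply (G : Fr I M ι) (f : o.C r k → o.Y n m k) (y : Pnt o r)
    (a : 𝔉.F0.H (k + 1) o.P1) (b : 𝔉.F0.H (k + 1) o.Pp) :
    lopG k G f y (a, b) = (((fderiv ℝ f (y.pt k) (a, b, 0)).1,
      (fderiv ℝ f (y.pt k) (a, b, 0)).2.1), (bd o).RR 𝔉.F0.toPre G k (fld y)
        (SH (k + 1) o (𝔉.S y.t) (iH1 _ _ o.P1 o.Pp a + iH2 _ _ o.P1 o.Pp b))) := rfl

theorem mem_U {v : o.C r k} : v ∈ o.U r k ↔ v.2.2.2 ∈ 𝔉.Q := Iff.rfl

theorem pt_eq (y : Pnt o r) : y.pt k =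
    (ofV 𝔉.F0.toPre (k + 1) o.P1 y.α, ofV 𝔉.F0.toPre (k + 1) o.Pp y.φ, y.z, y.t) := rfl

/-- a smooth family of frames for the adjoint -/
structure Ad (𝔉 : Mod61.Fam I M ι lam T) (t : T) (G : ℝ → Fr I M ι) : Prop where
  e : ∀ s, (G s).e = (𝔉.G t).F.e
  dv : ∀ a, SB 𝔉.F0.toPre univ fun s => (G s).dv a

variable (h : 𝔉.OK) {G : ℝ → Fr I M ι} (y : Pnt o r) (a : Ad 𝔉 y.t G)
include h a

theorem Ad.mx (s : ℝ) (_ : s ∈ univ) : Mix 𝔉.F0.toPre (G s).toPre fun a b x => 𝔉.S y.t x a b :=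
  fun b x => a.e s ▸ h.mix y.t y.ht b x

theorem Ad.op : (sb 𝔉.F0.toPre (A := fun a b _ x => 𝔉.S y.t x a b) (a.mx h y)
    fun a b => SB.fixed ((h.sS a b).cb y.t y.ht)).op
      fun s => ((bd o).d0 (G s) (fld y)).adj (G s) :=
  (Bd.In.d0 (F := G) ⟨fun a b => SB.fixed (cb_P h a b), fun a => SB.fixed (o.cρ a),
    SB.fixed (cb_Pg o h), SB.fixed (cb_P1 o h), SB.fixed (cb_P2 o h), SB.fixed (cb_Pp o h),
    SB.fixed (cb_Pm o h)⟩ (SB.fixed (cb_uy h y))).adj a.dv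

theorem Ad.rep (s : ℝ) : 𝔉.F0.Rep ((bd o).RR 𝔉.F0.toPre (G s) k (fld y))
    ((G s).op (((bd o).d0 (G s) (fld y)).adj (G s)).σ (((bd o).d0 (G s) (fld y)).adj (G s)).B) :=
  have al := ((ok_bd o h).alg_d0 (F := G s) (fld y)).adj (G s)
  (a.mx h y s trivial).rep_op (fun a b => (h.sS a b).cb y.t y.ht)
    (fun b => ((a.op h y).σ b).cb s trivial) ((a.op h y).B.cb s trivial) al.qσ (Maps.of_left al.qB)

theorem Ad.cont (f : o.C r k → o.Y n m k) : Continuous fun s => lopG k (G s) f y := by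
  have h1 : Continuous fun s => (bd o).RR 𝔉.F0.toPre (G s) k (fld y) :=
    continuousOn_univ.1 (sm_LH (a.op h y) (cb_Pg o h) (fun _ => rfl)
      (fun _ => ((ok_bd o h).alg_d0 _).adj _) (ok_bd o h).g k).continuousOn
  exact (ContinuousLinearMap.prodₗᵢ ℝ).continuous.comp
    (continuous_const.prodMk (h1.clm_comp continuous_const))

end row

/-! ### comparison -/

section cmp
variable (h : 𝔉.OK) (h' : (rw 𝔉 F').OK) (hd : Dom (rw 𝔉 F').F0.toPre 𝔉.F0.toPre)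
  (he : F'.e = 𝔉.F0.e) (o : Ref 𝔉)

theorem eP1 : (rwR o he).P1 = o.P1 := rfl
theorem eP2 : (rwR o he).P2 = o.P2 := rfl
theorem ePp : (rwR o he).Pp = o.Pp := rfl
theorem ePm : (rwR o he).Pm = o.Pm := rfl
theorem ePg : (rwR o he).Pg = o.Pg := rfl
theorem ebd : bd (rwR o he) = bd o := rfl
theorem ePC : (bd (rwR o he)).pC = (bd o).pC := rfl

/-- inclusion of the configurations -/
def wC (r k : ℕ) : (rwR o he).C r k →L[ℝ] o.C r k :=
  (iH 𝔉.F0 (rw 𝔉 F').F0 (k + 1) o.P1 (rwR o he).P1).prodMap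
    ((iH 𝔉.F0 (rw 𝔉 F').F0 (k + 1) o.Pp (rwR o he).Pp).prodMap (.id ℝ _))

/-- inclusion of the equations -/
def wY (n m k : ℕ) : (rwR o he).Y n m k →L[ℝ] o.Y n m k :=
  (iH 𝔉.F0 (rw 𝔉 F').F0 k o.Pm (rwR o he).Pm).prodMap
    ((iH 𝔉.F0 (rw 𝔉 F').F0 k o.P2 (rwR o he).P2).prodMap (.id ℝ _))

variable {he o}

/-- a point of the stronger scale -/
def up (y : Pnt (rwR o he) r) : Pnt o r :=
  ⟨y.α, y.φ, y.z, y.t, hs_iH hd (eP1 he o) h.sup h'.sup y.hα, hs_iH hd (ePp he o) h.sup h'.sup y.hφ,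
    y.ht⟩

theorem up_fld (y : Pnt (rwR o he) r) : fld y = fld (up h h' hd y) := rfl

variable (hk : 4 ≤ k) {e : T → PtX M ι lam r n m} {f : o.C r k → o.Y n m k}
  {f' : (rwR o he).C r k → (rwR o he).Y n m k}
include hk

theorem wC_pt (y : Pnt (rwR o he) r) : wC he o r k (y.pt k) = (up h h' hd y).pt k := by
  rw [pt_eq, pt_eq]
  exact (pm3 _ _ _ _ _).trans (congrArg₂ Prod.mk
    (iH_ofV hd (eP1 he o) h.sup h'.sup (by omega) y.hα)
    (congrArg₂ Prod.mk (iH_ofV hd (ePp he o) h.sup h'.sup (by omega) y.hφ) rfl))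

theorem repE_up {y : Pnt (rwR o he) r} {w : (rwR o he).Y n m k} (H : RepE e y w) :
    RepE e (up h h' hd y) (wY he o n m k w) :=
  have z : (wY he o n m k w).2.2 = w.2.2 := pm_z _ _ w
  ⟨(congrArg _ (pm_1 _ _ w)).trans ((val_iH hd (ePm he o) h.sup h'.sup hk _).trans H.D),
    (congrArg _ (pm_2 _ _ w)).trans ((val_iH hd (eP2 he o) h.sup h'.sup hk _).trans H.C),
    (congrArg Prod.fst z).trans H.S, (congrArg Prod.snd z).trans H.R⟩

include h h' hd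

theorem f_wC (hf : RepF e f) (hf' : RepF e f') :
    EqOn (f ∘ wC he o r k) (wY he o n m k ∘ f') ((rwR o he).U r k) :=
  have mp : ∀ v ∈ (rwR o he).U r k, wC he o r k v ∈ o.U r k := fun v hv => by
    have z : (wC he o r k v).2.2 = v.2.2 := pm_z _ _ v
    rw [mem_U] at hv ⊢
    rw [z]; exact hv
  eqOn_U h' (by omega) (hf.1.continuousOn.comp (wC he o r k).continuous.continuousOn mp)
    ((wY he o n m k).continuous.comp_continuousOn hf'.1.continuousOn) fun y =>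
      (congrArg f (wC_pt h h' hd hk y)).trans
        (repE_unique h hk (hf.2 _) (repE_up h h' hd hk (hf'.2 y)))

theorem df_wC (hf : RepF e f) (hf' : RepF e f') (y : Pnt (rwR o he) r) (v : (rwR o he).C r k) :
    fderiv ℝ f ((up h h' hd y).pt k) (wC he o r k v) = wY he o n m k (fderiv ℝ f' (y.pt k) v) :=
  fd_comm (wC_pt h h' hd hk y)
    ((hf.1.contDiffAt ((Map77.isOpen_U h).mem_nhds (Pnt.mem_U _))).differentiableAt (by simp))
    ((hf'.1.contDiffAt ((Map77.isOpen_U h').mem_nhds y.mem_U)).differentiableAt (by simp))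
    (eventually_of_mem ((Map77.isOpen_U h').mem_nhds y.mem_U) (f_wC h h' hd hk hf hf')) v

omit hk in
theorem row_up (y : Pnt (rwR o he) r) {G : ℝ → Fr I M ι} (A : Ad 𝔉 y.t G) (s : ℝ)
    (a : (rw 𝔉 F').F0.H (k + 1) (rwR o he).P1) (b : (rw 𝔉 F').F0.H (k + 1) (rwR o he).Pp) :
    (bd o).RR 𝔉.F0.toPre (G s) k (fld (up h h' hd y)) (SH (k + 1) o (𝔉.S (up h h' hd y).t)
      (iH1 _ _ o.P1 o.Pp (iH 𝔉.F0 (rw 𝔉 F').F0 (k + 1) o.P1 (rwR o he).P1 a) +
        iH2 _ _ o.P1 o.Pp (iH 𝔉.F0 (rw 𝔉 F').F0 (k + 1) o.Pp (rwR o he).Pp b))) =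
    iH 𝔉.F0 (rw 𝔉 F').F0 k o.Pg (rwR o he).Pg ((bd (rwR o he)).RR (rw 𝔉 F').F0.toPre (G s) k (fld y)
      (SH (k + 1) (rwR o he) ((rw 𝔉 F').S y.t) (iH1 _ _ (rwR o he).P1 (rwR o he).Pp a +
        iH2 _ _ (rwR o he).P1 (rwR o he).Pp b))) := by
  have A' : Ad (rw 𝔉 F') y.t G := ⟨A.e, fun b => sb_e he (A.dv b)⟩
  have e2 := iH_rep hd (ePC he o) (ePg he o) (A.rep (k := k) h (up h h' hd y) s) (A'.rep h' y s)
    (by rw [ebd, up_fld h h' hd])
  have e3 := iH_rep hd (ePC he o) (ePC he o) (rep_SH (k := k + 1) o h (up h h' hd y).ht)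
    (rep_SH (rwR o he) h' y.ht) rfl
  have e4 := iH_rep hd (eP1 he o) (ePC he o) (rep_iH1 (k := k + 1)) rep_iH1 rfl a
  have e5 := iH_rep hd (ePp he o) (ePC he o) (rep_iH2 (k := k + 1)) rep_iH2 rfl b
  exact (congrArg _ ((congrArg _ ((congrArg₂ (· + ·) e4 e5).trans (map_add _ _ _).symm)).trans
    (e3 _))).trans (e2 _)

/-- **more decay, smaller index** -/
theorem lop_le (hf : RepF e f) (hf' : RepF e f') (y : Pnt (rwR o he) r) {G : ℝ → Fr I M ι}
    (A : Ad 𝔉 y.t G) (s : ℝ) {d d' : ℤ} (H : Fred93.Fr (lopG k (G s) f (up h h' hd y)) d)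
    (H' : Fred93.Fr (lopG k (G s) f' y) d') : d' ≤ d := by
  refine fr_le' H H' (iH_inj (k := k + 1) hd (eP1 he o) h.sup h'.sup (by omega))
    (iH_inj (k := k + 1) hd (ePp he o) h.sup h'.sup (by omega)) (iH_dense hd (ePm he o))
    (iH_dense hd (eP2 he o)) (iH_dense hd (ePg he o))
    fun a b => ⟨_, _, _, lopG_apply _ _ _ a b, (lopG_apply _ _ _ _ _).trans ?_⟩
  have e1 := df_wC h h' hd hk hf hf' y (a, b, 0)
  rw [wC, pm3] at e1
  exact congrArg₂ Prod.mk (congrArg₂ Prod.mk ((congrArg Prod.fst e1).trans (pm_1 _ _ _))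
    ((congrArg (·.2.1) e1).trans (pm_2 _ _ _))) (row_up h h' hd y A s a b)

end cmp

end Crest.Agent.X212.Ixm76
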